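import Vale.Agent.P153.RSW.Stm

/-! Planarity in a half plane: a path between two boundary points separates. -/

open Set

namespace Vale.Agent.P153.RSW

open Classical in
/-- Indicator of a proposition modulo two. -/
noncomputable def pla_ind (P : Prop) : ZMod 2 := if P then 1 else 0

theorem pla_xor (P Q : Prop) : pla_ind (¬ (P ↔ Q)) = pla_ind P + pla_ind Q := by
  unfold pla_ind
  by_cases hP : P <;> by_cases hQ : Q <;> simp [hP, hQ]
  decide

theorem pla_congr {P Q : Prop} (h : P ↔ Q) : pla_ind P = pla_ind Q := by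
  rw [propext h]

theorem pla_pos {P : Prop} (h : P) : pla_ind P = 1 := by
  unfold pla_ind; rw [if_pos h]

theorem pla_neg {P : Prop} (h : ¬ P) : pla_ind P = 0 := by
  unfold pla_ind; rw [if_neg h]

theorem pla_tel (P : ℕ → Prop) (X : V → Prop) (w : ℕ → V) (m : ℕ)
    (h : ∀ t < m, (P t ↔ ¬ (X (w t) ↔ X (w (t + 1))))) :
    ∑ t ∈ Finset.range m, pla_ind (P t) = pla_ind (X (w 0)) + pla_ind (X (w m)) := by
  induction m with
  | zero => simp [CharTwo.add_self_eq_zero]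
  | succ m ih =>
    rw [Finset.sum_range_succ, ih fun t ht => h t (by omega), pla_congr (h m (by omega)),
      pla_xor, add_assoc, ← add_assoc (pla_ind (X (w m))), CharTwo.add_self_eq_zero, zero_add]

/-- Parity of the number of crossings of the ray to the right of `v`. -/
noncomputable def pla_chi (w : ℕ → V) (m : ℕ) (v : V) : ZMod 2 :=
  ∑ t ∈ Finset.range m, pla_ind (crossR v (w t) (w (t + 1)))

theorem pla_hor (i j : ℤ) (p q : V) (h4 : p ≠ (i + 1, j)) (h6 : q ≠ (i + 1, j)) :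
    crossR (i, j) p q ↔ crossR (i + 1, j) p q := by
  obtain ⟨p1, p2⟩ := p
  obtain ⟨q1, q2⟩ := q
  simp only [crossR, ne_eq, Prod.mk.injEq] at *
  omega

theorem pla_up (i j : ℤ) (p q : V) (h : Adj p q) (h4 : p ≠ (i, j + 1)) (h6 : q ≠ (i, j + 1)) :
    ¬ (crossR (i, j) p q ↔ crossR (i, j + 1) p q) ↔
      ¬ ((p.2 = j + 1 ∧ i < p.1) ↔ (q.2 = j + 1 ∧ i < q.1)) := by
  obtain ⟨p1, p2⟩ := p
  obtain ⟨q1, q2⟩ := q
  simp only [crossR, ne_eq, Prod.mk.injEq, adj_iff] at *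
  omega

theorem pla_diag (i j : ℤ) (p q : V) (h : Adj p q) (h3 : p ≠ (i + 1, j)) (h5 : q ≠ (i + 1, j))
    (h4 : p ≠ (i, j + 1)) (h6 : q ≠ (i, j + 1)) :
    ¬ (crossR (i + 1, j) p q ↔ crossR (i, j + 1) p q) ↔
      ¬ ((p.2 = j + 1 ∧ i < p.1) ↔ (q.2 = j + 1 ∧ i < q.1)) := by
  obtain ⟨p1, p2⟩ := p
  obtain ⟨q1, q2⟩ := q
  simp only [crossR, ne_eq, Prod.mk.injEq, adj_iff] at *
  omega

theorem pla_set {r : ℤ} {v v' : V} (h : Adj v v') (hv : r ≤ v.2) (hv' : r ≤ v'.2) :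
    ∃ X : V → Prop, (∀ p, X p → r < p.2) ∧ ∀ p q, Adj p q → p ≠ v → p ≠ v' → q ≠ v → q ≠ v' →
      (¬ (crossR v p q ↔ crossR v' p q) ↔ ¬ (X p ↔ X q)) := by
  obtain ⟨i, j⟩ := v
  obtain ⟨i', j'⟩ := v'
  simp only [adj_iff] at h
  have key : (i' = i + 1 ∧ j' = j) ∨ (i = i' + 1 ∧ j = j') ∨ (i' = i ∧ j' = j + 1) ∨
      (i = i' ∧ j = j' + 1) ∨ (i = i' + 1 ∧ j' = j + 1) ∨ (i' = i + 1 ∧ j = j' + 1) := by omega
  simp only at hv hv'
  rcases key with ⟨rfl, rfl⟩ | ⟨rfl, rfl⟩ | ⟨rfl, rfl⟩ | ⟨rfl, rfl⟩ | ⟨rfl, rfl⟩ | ⟨rfl, rfl⟩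
  · exact ⟨fun _ => False, fun _ h => h.elim, fun p q _ _ h2 _ h4 => by
      simp [pla_hor _ _ p q h2 h4]⟩
  · exact ⟨fun _ => False, fun _ h => h.elim, fun p q _ h1 _ h3 _ => by
      simp [pla_hor _ _ p q h1 h3]⟩
  · exact ⟨fun p => p.2 = j + 1 ∧ i' < p.1, fun p h => by omega, fun p q h0 _ h2 _ h4 =>
      pla_up _ _ p q h0 h2 h4⟩
  · exact ⟨fun p => p.2 = j' + 1 ∧ i < p.1, fun p h => by omega, fun p q h0 h1 _ h3 _ => by
      rw [← pla_up _ _ p q h0 h1 h3, Iff.comm (a := crossR _ p q)]⟩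
  · exact ⟨fun p => p.2 = j + 1 ∧ i' < p.1, fun p h => by omega, fun p q h0 h1 h2 h3 h4 =>
      pla_diag _ _ p q h0 h1 h3 h2 h4⟩
  · exact ⟨fun p => p.2 = j' + 1 ∧ i < p.1, fun p h => by omega, fun p q h0 h1 h2 h3 h4 => by
      rw [← pla_diag _ _ p q h0 h2 h4 h1 h3, Iff.comm (a := crossR _ p q)]⟩

theorem pla_step {r : ℤ} {w : ℕ → V} {m : ℕ} (hw : ∀ t < m, Adj (w t) (w (t + 1)))
    (h0 : (w 0).2 = r) (hm : (w m).2 = r) {v v' : V} (h : Adj v v') (hv : r ≤ v.2)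
    (hv' : r ≤ v'.2) (hn : ∀ t ≤ m, w t ≠ v) (hn' : ∀ t ≤ m, w t ≠ v') :
    pla_chi w m v = pla_chi w m v' := by
  obtain ⟨X, hX, hs⟩ := pla_set h hv hv'
  have h1 := pla_tel (fun t => ¬ (crossR v (w t) (w (t + 1)) ↔ crossR v' (w t) (w (t + 1)))) X w m
    fun t ht => hs _ _ (hw t ht) (hn t ht.le) (hn' t ht.le) (hn _ ht) (hn' _ ht)
  rw [pla_neg (P := X (w 0)) fun k => by have := hX _ k; omega,
    pla_neg (P := X (w m)) fun k => by have := hX _ k; omega, add_zero] at h1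
  simp only [pla_xor, Finset.sum_add_distrib] at h1
  exact CharTwo.add_eq_zero.1 h1

theorem pla_out {r : ℤ} {ρ : ℕ} {b : V} (hb : b ∉ hex 0 ρ) (hr : r ≤ b.2) :
    ∃ X : V → Prop, (∀ p, X p → r < p.2) ∧ ∀ p q, Adj p q → p ∈ hex 0 ρ → q ∈ hex 0 ρ →
      (crossR b p q ↔ ¬ (X p ↔ X q)) := by
  by_cases h : b.1 < -(ρ : ℤ) ∨ b.1 + b.2 < -(ρ : ℤ)
  · refine ⟨fun p => b.2 < p.2, fun p k => by omega, fun p q h1 h2 h3 => ?_⟩
    simp only [crossR, mem_hex0, adj_iff] at *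
    omega
  · refine ⟨fun _ => False, fun _ k => k.elim, fun p q h1 h2 h3 => ?_⟩
    simp only [crossR, mem_hex0, adj_iff, iff_self, not_true_eq_false, iff_false] at *
    omega

theorem pla : PLA := by
  intro r ρ S T l a c b hS hT hla hac hl hlc ha hab hb
  by_contra hne
  obtain ⟨m, w, h0, hm, hw, hwS⟩ := cn_walk hlc hl
  have hd : ∀ v ∈ T, ∀ t ≤ m, w t ≠ v := fun v hv t ht k => hne ⟨v, k ▸ hwS t ht, hv⟩
  have hw' : ∀ t < m, Adj (w t) (w (t + 1)) := fun t ht => (hw t ht).1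
  have h0' : (w 0).2 = r := by rw [h0]
  have hm' : (w m).2 = r := by rw [hm]
  have hc : ∀ v, Conn all T (a, r) v → pla_chi w m (a, r) = pla_chi w m v := by
    intro v hv
    induction hv with
    | refl => rfl
    | tail _ k ih =>
      exact ih.trans (pla_step hw' h0' hm' k.1 (hT k.2.2.1) (hT k.2.2.2) (hd _ k.2.2.1)
        (hd _ k.2.2.2))
  have h1 : pla_chi w m (a, r) = 1 := by
    have := pla_tel (fun t => crossR (a, r) (w t) (w (t + 1))) (fun p => p.2 = r ∧ a < p.1) w m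
      fun t ht => by
        have k1 := hw' t ht
        have k2 := hd _ ha t ht.le
        have k3 := hd _ ha (t + 1) ht
        have k4 : r ≤ (w t).2 := (hS (hwS t ht.le)).1
        have k5 : r ≤ (w (t + 1)).2 := (hS (hwS _ ht)).1
        generalize w t = p at *
        generalize w (t + 1) = q at *
        obtain ⟨p1, p2⟩ := p
        obtain ⟨q1, q2⟩ := q
        simp only [crossR, ne_eq, Prod.mk.injEq, adj_iff] at k1 k2 k3 k4 k5 ⊢
        omega
    rw [h0, hm, pla_neg (P := _ ∧ a < _) fun k => by have := k.2; simp only at this; omega,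
      pla_pos (P := _ ∧ a < _) ⟨rfl, hac⟩, zero_add] at this
    exact this
  have h2 : pla_chi w m b = 0 := by
    obtain ⟨X, hX, hs⟩ := pla_out hb (hT (cn_mem hab ha))
    have := pla_tel (fun t => crossR b (w t) (w (t + 1))) X w m fun t ht =>
      hs _ _ (hw' t ht) (hS (hwS t ht.le)).2 (hS (hwS _ ht)).2
    rw [pla_neg (P := X (w 0)) fun k => by have := hX _ k; omega,
      pla_neg (P := X (w m)) fun k => by have := hX _ k; omega, add_zero] at this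
    exact this
  rw [hc b hab, h2] at h1
  exact zero_ne_one h1

end Vale.Agent.P153.RSW
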