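import Vale.Agent.P153.RSW.Stm

/-! Half plane paths with alternating ends meet. -/

open Set

namespace Vale.Agent.P153.RSW

theorem plb_bdd {T : Set V} {x y : V} (h : Conn all T x y) (hx : x ∈ T) :
    ∃ ρ : ℕ, x ∈ hex 0 ρ ∧ Conn all (T ∩ hex 0 ρ) x y := by
  induction h with
  | refl => exact ⟨x.1.natAbs + x.2.natAbs, mem_hex0.2 (by omega), cn_refl⟩
  | @tail u v _ k ih =>
    obtain ⟨ρ, h1, h2⟩ := ih
    have h3 := mem_hex0.1 (cn_mem h2 ⟨hx, h1⟩).2
    have h4 := adj_iff.1 k.1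
    have h5 : hex 0 ρ ⊆ hex 0 (ρ + 1) := fun z hz => by
      simp only [mem_hex0] at hz ⊢
      omega
    exact ⟨ρ + 1, h5 h1, (cn_mono (fun _ _ h => h) (inter_subset_inter_right _ h5) h2).tail
      ⟨k.1, trivial, ⟨k.2.2.1, mem_hex0.2 (by omega)⟩, k.2.2.2, mem_hex0.2 (by omega)⟩⟩

theorem plb_row {T : Set V} {a : ℤ} (h : ∀ i ≤ a, (i, (-1 : ℤ)) ∈ T) (n : ℕ) :
    Conn all T (a, -1) (a - n, -1) := by
  induction n with
  | zero => simpa using cn_refl
  | succ n ih =>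
    exact cn_trans ih (cn_step (adj_iff.2 (Or.inr (Or.inl ⟨by push_cast; ring, rfl⟩))) trivial (h _ (by omega))
      (h _ (by omega)))

theorem plb (h : PLA) : PLB := by
  intro S T a b c d hS hT hab hbc hcd ha h1 hb h2
  obtain ⟨ρ, h3, h4⟩ := plb_bdd h2 hb
  have h5 := cn_mem h4 ⟨hb, h3⟩
  have h6 := mem_hex0.1 h3
  have h7 := mem_hex0.1 h5.2
  have up : ∀ i : ℤ, Adj (i, -1) (i, 0) := fun i => adj_iff.2 (by simp)
  obtain ⟨v, v1, v2⟩ := h (-1) (ρ + 1) ((T ∩ hex 0 ρ) ∪ {v | v.2 = -1 ∧ (v.1 = b ∨ v.1 = d)})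
    (S ∪ {v | v.2 = -1 ∧ (v.1 = c ∨ v.1 ≤ a)}) b c d (a - (2 * ρ + 2 : ℕ), -1)
    (by
      rintro v (hv | hv)
      · have := hT hv.1
        have := mem_hex0.1 hv.2
        simp only [mem_inter_iff, mem_ofPred_eq, mem_hex0] at *
        omega
      · simp only [mem_inter_iff, mem_ofPred_eq, mem_hex0] at *
        omega)
    (by
      rintro v (hv | hv)
      · exact le_trans (by norm_num : (-1 : ℤ) ≤ 0) (hS hv)
      · exact hv.1.ge) hbc hcd (Or.inr ⟨rfl, Or.inl rfl⟩)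
    (cn_trans (cn_step (up b) trivial (Or.inr ⟨rfl, Or.inl rfl⟩) (Or.inl ⟨hb, h3⟩))
      (cn_trans (cn_mono (fun _ _ h => h) subset_union_left h4)
        (cn_step (up d).symm trivial (Or.inl h5) (Or.inr ⟨rfl, Or.inr rfl⟩))))
    (Or.inr ⟨rfl, Or.inl rfl⟩)
    (cn_trans (cn_step (up c) trivial (Or.inr ⟨rfl, Or.inl rfl⟩) (Or.inl (cn_mem h1 ha)))
      (cn_trans (cn_mono (fun _ _ h => h) subset_union_left (cn_symm all_symm h1))
        (cn_trans (cn_step (up a).symm trivial (Or.inl ha) (Or.inr ⟨rfl, Or.inr le_rfl⟩))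
          (plb_row (fun i hi => Or.inr ⟨rfl, Or.inr hi⟩) _))))
    (by
      simp only [mem_hex0] at *
      omega)
  rcases v1 with v1 | v1 <;> rcases v2 with v2 | v2
  · exact ⟨v, v2, v1.1⟩
  · have := hT v1.1
    simp only [mem_ofPred_eq] at this v2
    omega
  · have := hS v2
    simp only [mem_ofPred_eq] at this v1
    omega
  · simp only [mem_ofPred_eq] at v1 v2
    omega

end Vale.Agent.P153.RSW
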