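import Vale.Agent.P153.Core

/-! Abstract Russo-Seymour-Welsh theory on the triangular lattice: definitions, basic lemmas. -/

open Set Filter Topology

namespace Vale.Agent.P153.RSW

variable {Ω : Type}

/-- Events increasing in the open edges. -/
def Up (e : Ω → V → V → Prop) (A : Set Ω) : Prop :=
  ∀ ω ω', (∀ a b, e ω a b → e ω' a b) → ω ∈ A → ω' ∈ A

/-- An open path inside `S` from `A` to `B`. -/
def Ev (e : Ω → V → V → Prop) (S A B : Set V) : Set Ω :=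
  {ω | ∃ a ∈ A, ∃ b ∈ B, a ∈ S ∧ Conn (e ω) S a b}

/-- Positive association and approximate symmetry inside the hexagon of radius `R`. -/
structure Hyp (e : Ω → V → V → Prop) (P : Set Ω → ℝ) (R : ℕ) (η : ℝ) : Prop where
  symm : ∀ ω a b, e ω a b → e ω b a
  nonneg : ∀ A, 0 ≤ P A
  univ : P univ = 1
  add : ∀ A B, Disjoint A B → P (A ∪ B) = P A + P B
  fkg : ∀ A B, Up e A → Up e B → P A * P B ≤ P (A ∩ B)
  sym : ∀ g : V ≃ V, IsSym g → ∀ S A B : Set V, S ⊆ hex 0 R → g '' S ⊆ hex 0 R →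
    P (Ev e S A B) ≤ P (Ev e (g '' S) (g '' A) (g '' B)) + η

/-- Admissible transfer functions. -/
def Gd (f : ℝ → ℝ) : Prop :=
  (∀ x ∈ Ioo (0 : ℝ) 1, f x ∈ Ioo (0 : ℝ) 1) ∧ Tendsto f (𝓝[<] 1) (𝓝 1)

/-- The shape of all probabilistic statements: a lower bound `p` gives a lower bound `f p`. -/
def Tr (Q : ∀ {Ω : Type}, (Ω → V → V → Prop) → (Set Ω → ℝ) → ℕ → ℝ → ℝ → Prop) : Prop :=
  ∃ f, Gd f ∧ ∀ p ∈ Ioo (0 : ℝ) 1, ∃ η : ℝ, 0 < η ∧
    ∀ (Ω : Type) (e : Ω → V → V → Prop) (P : Set Ω → ℝ) (R : ℕ), Hyp e P R η → Q e P R p (f p)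

/-- All lattice edges. -/
def all : V → V → Prop := fun _ _ => True

/-- The base interval. -/
def I0 (w : ℕ) : Set V := {v | v.2 = 0 ∧ -(w : ℤ) ≤ v.1 ∧ v.1 ≤ w}

/-- The triangle above the base interval. -/
def triS (w : ℕ) : Set V :=
  {v | 0 ≤ v.2 ∧ v.1 + v.2 ≤ 651 * (2 * (w : ℤ) + 1) ∧ -v.1 ≤ 651 * (2 * (w : ℤ) + 1)}

/-- Its two upper sides. -/
def triB (w : ℕ) : Set V :=
  {v | v.1 + v.2 = 651 * (2 * (w : ℤ) + 1) ∨ -v.1 = 651 * (2 * (w : ℤ) + 1)}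

/-- Half plane arm. -/
def G (e : Ω → V → V → Prop) (w : ℕ) : Set Ω := Ev e (triS w) (I0 w) (triB w)

/-- Region with little room below the origin. -/
def dS (w : ℕ) : Set V :=
  {v | -6 * (2 * (w : ℤ) + 1) < v.2 ∧ v.1 + v.2 ≤ 42 * (2 * (w : ℤ) + 1) ∧
    -v.1 ≤ 45 * (2 * (w : ℤ) + 1)}

/-- Its right side. -/
def dB (w : ℕ) : Set V := {v | v.1 + v.2 = 42 * (2 * (w : ℤ) + 1)}

/-- Arm from a small hexagon with little room below. -/
def D (e : Ω → V → V → Prop) (l w : ℕ) : Set Ω := Ev e (dS w) (hex 0 l) (dB w)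

/-- Half hexagon. -/
def hS (w : ℕ) : Set V := {v | 0 ≤ v.2} ∩ hex 0 (129 * (2 * w + 1))

/-- The point at height `2 k` above the origin. -/
def gate (k : ℕ) : V := (-(k : ℤ), 2 * (k : ℤ))

/-- Right leg of the barrier. -/
def Al (e : Ω → V → V → Prop) (k l w : ℕ) : Set Ω :=
  Ev e (hS w) (hex (gate k) l) {v | v.2 = 0 ∧ 3 * (2 * (w : ℤ) + 1) < v.1}

/-- Left leg of the barrier. -/
def Al' (e : Ω → V → V → Prop) (k l w : ℕ) : Set Ω :=
  Ev e (hS w) (hex (gate k) l) {v | v.2 = 0 ∧ v.1 < -3 * (2 * (w : ℤ) + 1)}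

/-- Bridge. -/
def Wide (e : Ω → V → V → Prop) (w : ℕ) : Set Ω :=
  {ω | ∃ i j : ℤ, i + 2 * (2 * (w : ℤ) + 1) ≤ j ∧ (i, (0 : ℤ)) ∈ hS w ∧
    Conn (e ω) (hS w) (i, 0) (j, 0)}

/-- Half plane arm avoiding the gate. -/
def Eav (e : Ω → V → V → Prop) (k l w : ℕ) : Set Ω :=
  Ev e (triS w \ hex (gate k) l) (I0 w) (triB w)

/-- Parallelogram of height `b` and length `L`. -/
def box (b L : ℕ) : Set V := {v | 0 ≤ v.2 ∧ v.2 ≤ b ∧ 0 ≤ v.1 ∧ v.1 ≤ L}

/-- Long crossing of the image of the parallelogram. -/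
def LX (e : Ω → V → V → Prop) (g : V ≃ V) (b L : ℕ) : Set Ω :=
  Ev e (g '' box b L) (g '' {v | v.1 = 0}) (g '' {v | v.1 = L})

/-- Arm from the hexagon of radius `a` to the boundary of the hexagon of radius `b`. -/
def Ar (e : Ω → V → V → Prop) (a b : ℕ) : Set Ω := Ev e (hex 0 b) (hex 0 a) {v | nrm v = b}

/-- The mirror in the vertical axis. -/
def mir : V ≃ V :=
  ⟨fun x => (-x.1 - x.2, x.2), fun x => (-x.1 - x.2, x.2), fun x => by ext <;> simp,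
    fun x => by ext <;> simp⟩

/-- Rotation by 120 degrees. -/
def r3 : V ≃ V :=
  ⟨fun x => (-x.1 - x.2, x.1), fun x => (x.2, -x.1 - x.2), fun x => by ext <;> simp,
    fun x => by ext <;> simp only; ring⟩

/-- The lower side of the triangle round the origin is the image of `box (b - a) (3 * b)`. -/
def side (b : ℕ) : V ≃ V := tr (-(b : ℤ), -(b : ℤ))

theorem isSym_mir : IsSym mir := fun x y => by
  simp only [adj_iff, mir, Equiv.coe_fn_mk]; omega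

theorem isSym_r3 : IsSym r3 := fun x y => by
  simp only [adj_iff, r3, Equiv.coe_fn_mk]; omega

theorem isSym_trans {g h : V ≃ V} (hg : IsSym g) (hh : IsSym h) : IsSym (g.trans h) :=
  fun x y => (hh _ _).trans (hg x y)

theorem isSym_symm {g : V ≃ V} (hg : IsSym g) : IsSym g.symm := fun x y => by
  rw [← hg, g.apply_symm_apply, g.apply_symm_apply]

theorem isSym_refl : IsSym (Equiv.refl V) := fun _ _ => Iff.rfl

theorem mem_hex {x v : V} {n : ℕ} : v ∈ hex x n ↔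
    -(n : ℤ) ≤ v.1 - x.1 ∧ v.1 - x.1 ≤ n ∧ -(n : ℤ) ≤ v.2 - x.2 ∧ v.2 - x.2 ≤ n ∧
      -(n : ℤ) ≤ v.1 - x.1 + (v.2 - x.2) ∧ v.1 - x.1 + (v.2 - x.2) ≤ n := by
  simp only [hex, nrm, mem_ofPred_eq, Prod.fst_sub, Prod.snd_sub]
  omega

theorem mem_hex0 {v : V} {n : ℕ} : v ∈ hex 0 n ↔
    -(n : ℤ) ≤ v.1 ∧ v.1 ≤ n ∧ -(n : ℤ) ≤ v.2 ∧ v.2 ≤ n ∧ -(n : ℤ) ≤ v.1 + v.2 ∧ v.1 + v.2 ≤ n := by
  simp only [mem_hex, Prod.fst_zero, Prod.snd_zero, sub_zero]

variable {E E' : V → V → Prop} {S S' : Set V} {a b c : V}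

theorem cn_refl : Conn E S a a := Relation.ReflTransGen.refl

theorem cn_trans (h : Conn E S a b) (h' : Conn E S b c) : Conn E S a c :=
  Relation.ReflTransGen.trans h h'

theorem cn_step (h : Adj a b) (he : E a b) (ha : a ∈ S) (hb : b ∈ S) : Conn E S a b :=
  Relation.ReflTransGen.single ⟨h, he, ha, hb⟩

theorem cn_mono (hE : ∀ x y, E x y → E' x y) (hS : S ⊆ S') (h : Conn E S a b) :
    Conn E' S' a b := by
  induction h with
  | refl => exact cn_refl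
  | tail _ k ih => exact ih.tail ⟨k.1, hE _ _ k.2.1, hS k.2.2.1, hS k.2.2.2⟩

theorem cn_symm (hE : ∀ x y, E x y → E y x) (h : Conn E S a b) : Conn E S b a := by
  induction h with
  | refl => exact cn_refl
  | tail _ k ih => exact cn_trans (cn_step k.1.symm (hE _ _ k.2.1) k.2.2.2 k.2.2.1) ih

theorem cn_mem (h : Conn E S a b) (ha : a ∈ S) : b ∈ S := by
  induction h with
  | refl => exact ha
  | tail _ k _ => exact k.2.2.2

/-- A path from `a` stays in the cluster of `a`. -/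
theorem cn_cluster (h : Conn E S a b) :
    Conn E {v | v ∈ S ∧ Conn E S a v} a b := by
  induction h with
  | refl => exact cn_refl
  | tail k0 k ih => exact ih.tail ⟨k.1, k.2.1, ⟨k.2.2.1, k0⟩, k.2.2.2, k0.tail k⟩

/-- Either the path stays in `T`, or it has a first exit from `T`. -/
theorem cn_exit (T : Set V) (h : Conn E S a b) (ha : a ∈ T) :
    (b ∈ T ∧ Conn E (S ∩ T) a b) ∨
      ∃ u v, u ∈ T ∧ v ∉ T ∧ u ∈ S ∧ v ∈ S ∧ Adj u v ∧ E u v ∧ Conn E (S ∩ T) a u ∧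
        Conn E S v b := by
  induction h with
  | refl => exact Or.inl ⟨ha, cn_refl⟩
  | @tail u v _ k ih =>
    rcases ih with ⟨h1, h2⟩ | ⟨x, y, h1, h2, h3, h4, h5, h6, h7, h8⟩
    · by_cases hv : v ∈ T
      · exact Or.inl ⟨hv, h2.tail ⟨k.1, k.2.1, ⟨k.2.2.1, h1⟩, k.2.2.2, hv⟩⟩
      · exact Or.inr ⟨u, v, h1, hv, k.2.2.1, k.2.2.2, k.1, k.2.1, h2, cn_refl⟩
    · exact Or.inr ⟨x, y, h1, h2, h3, h4, h5, h6, h7, h8.tail k⟩

/-- First visit of the level `h` of a function with unit increments. -/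
theorem cn_first (φ : V → ℤ) (hφ : ∀ x y, Adj x y → φ y ≤ φ x + 1) {h : ℤ} (hc : Conn E S a b)
    (haS : a ∈ S) (ha : φ a ≤ h) (hb : h ≤ φ b) :
    ∃ c, φ c = h ∧ c ∈ S ∧ Conn E (S ∩ {v | φ v ≤ h}) a c ∧ Conn E S c b := by
  rcases ha.eq_or_lt with h0 | h0
  · exact ⟨a, h0, haS, cn_refl, hc⟩
  rcases cn_exit {v | φ v < h} hc h0 with ⟨h1, -⟩ | ⟨u, v, h1, h2, h3, h4, h5, h6, h7, h8⟩
  · exact absurd h1 (not_lt.2 hb)
  · have h9 := hφ u v h5
    simp only [mem_ofPred_eq] at h1 h2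
    have h10 : S ∩ {v | φ v < h} ⊆ S ∩ {v | φ v ≤ h} := fun x hx =>
      ⟨hx.1, show φ x ≤ h from le_of_lt hx.2⟩
    refine ⟨v, by omega, h4, (cn_mono (fun _ _ k => k) h10 h7).tail
      ⟨h5, h6, ⟨h3, le_of_lt h1⟩, h4, ?_⟩, h8⟩
    show φ v ≤ h
    omega

/-- Last visit of the level `h`. -/
theorem cn_last (hE : ∀ x y, E x y → E y x) (φ : V → ℤ) (hφ : ∀ x y, Adj x y → φ y ≤ φ x + 1)
    {h : ℤ} (hc : Conn E S a b) (haS : a ∈ S) (ha : φ a ≤ h) (hb : h ≤ φ b) :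
    ∃ c, φ c = h ∧ c ∈ S ∧ Conn E S a c ∧ Conn E (S ∩ {v | h ≤ φ v}) c b := by
  obtain ⟨c, h1, h2, h3, h4⟩ := cn_first (fun v => -φ v) (h := -h)
    (fun x y k => by have := hφ y x k.symm; omega) (cn_symm hE hc) (cn_mem hc haS) (by omega)
    (by omega)
  refine ⟨c, by omega, h2, cn_symm hE h4, cn_mono (fun _ _ k => k) (fun x hx => ⟨hx.1, ?_⟩)
    (cn_symm hE h3)⟩
  have := hx.2
  simp only [mem_ofPred_eq] at this ⊢
  omega

/-- Transport of a path by a symmetry. -/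
theorem cn_map {g : V ≃ V} (hg : IsSym g) (hE : ∀ x y, E x y → E' (g x) (g y))
    (h : Conn E S a b) : Conn E' (g '' S) (g a) (g b) := by
  induction h with
  | refl => exact cn_refl
  | tail _ k ih =>
    exact ih.tail ⟨(hg _ _).2 k.1, hE _ _ k.2.1, mem_image_of_mem _ k.2.2.1,
      mem_image_of_mem _ k.2.2.2⟩

theorem cn_all (h : Conn E S a b) : Conn all S a b := cn_mono (fun _ _ _ => trivial) le_rfl h

theorem all_symm (x y : V) (_ : all x y) : all y x := trivial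

/-- A path as a sequence. -/
theorem cn_walk (h : Conn E S a b) (ha : a ∈ S) : ∃ (m : ℕ) (w : ℕ → V), w 0 = a ∧ w m = b ∧
    (∀ t < m, Adj (w t) (w (t + 1)) ∧ E (w t) (w (t + 1))) ∧ ∀ t ≤ m, w t ∈ S := by
  induction h with
  | refl => exact ⟨0, fun _ => a, rfl, rfl, fun t ht => absurd ht (Nat.not_lt_zero t), fun _ _ => ha⟩
  | @tail u v _ k ih =>
    obtain ⟨m, w, h0, h1, h2, h3⟩ := ih
    refine ⟨m + 1, fun t => if t ≤ m then w t else v, by simp [h0], by simp, fun t ht => ?_,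
      fun t ht => ?_⟩
    · by_cases h4 : t < m
      · simp only [if_pos h4.le, if_pos (Nat.succ_le_of_lt h4)]
        exact h2 t h4
      · obtain rfl : t = m := by omega
        simp only [le_refl, if_true, Nat.not_succ_le_self, if_false, h1]
        exact ⟨k.1, k.2.1⟩
    · by_cases h4 : t ≤ m
      · simp only [if_pos h4]
        exact h3 t h4
      · simp only [if_neg h4]
        exact k.2.2.2

variable {e : Ω → V → V → Prop} {A A' B B' : Set V}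

theorem ev_mono (hS : S ⊆ S') (hA : A ∩ S ⊆ A') (hB : B ∩ S ⊆ B') : Ev e S A B ⊆ Ev e S' A' B' := by
  rintro ω ⟨a, ha, b, hb, h1, h2⟩
  exact ⟨a, hA ⟨ha, h1⟩, b, hB ⟨hb, cn_mem h2 h1⟩, hS h1, cn_mono (fun _ _ k => k) hS h2⟩

theorem up_ev : Up e (Ev e S A B) := by
  rintro ω ω' h ⟨a, ha, b, hb, h1, h2⟩
  exact ⟨a, ha, b, hb, h1, cn_mono h le_rfl h2⟩

theorem up_wide (w : ℕ) : Up e (Wide e w) := by
  rintro ω ω' h ⟨i, j, h0, h1, h2⟩
  exact ⟨i, j, h0, h1, cn_mono h le_rfl h2⟩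

theorem up_circ (z : V) (n N : ℕ) : Up e {ω | Circ (e ω) z n N} := by
  rintro ω ω' h ⟨m, w, h0, h1, h2⟩
  exact ⟨m, w, h0, fun t ht => ⟨(h1 t ht).1, h _ _ (h1 t ht).2⟩, h2⟩

theorem Up.inter {X Y : Set Ω} (hX : Up e X) (hY : Up e Y) : Up e (X ∩ Y) :=
  fun ω ω' h k => ⟨hX ω ω' h k.1, hY ω ω' h k.2⟩

theorem Up.union {X Y : Set Ω} (hX : Up e X) (hY : Up e Y) : Up e (X ∪ Y) :=
  fun ω ω' h k => k.imp (hX ω ω' h) (hY ω ω' h)

variable {P : Set Ω → ℝ} {R : ℕ} {η η' : ℝ} {X Y : Set Ω}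

theorem Hyp.weak (h : Hyp e P R η) (hη : η ≤ η') : Hyp e P R η' :=
  ⟨h.symm, h.nonneg, h.univ, h.add, h.fkg, fun g hg S A B h1 h2 =>
    (h.sym g hg S A B h1 h2).trans (by linarith)⟩

theorem Hyp.mono (h : Hyp e P R η) (hX : X ⊆ Y) : P X ≤ P Y := by
  have h1 := h.add X (Y \ X) disjoint_sdiff_right
  rw [union_sdiff_cancel hX] at h1
  linarith [h.nonneg (Y \ X)]

theorem Hyp.le_one (h : Hyp e P R η) (X : Set Ω) : P X ≤ 1 := h.univ ▸ h.mono (subset_univ X)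

theorem Hyp.empty (h : Hyp e P R η) : P ∅ = 0 := by
  have h1 := h.add ∅ ∅ (disjoint_empty ∅)
  rw [empty_union] at h1
  linarith

theorem Hyp.modular (h : Hyp e P R η) (X Y : Set Ω) : P (X ∪ Y) + P (X ∩ Y) = P X + P Y := by
  have h1 := h.add X (Y \ X) disjoint_sdiff_right
  have h2 := h.add (X ∩ Y) (Y \ X) (disjoint_sdiff_right.mono_left inter_subset_left)
  rw [union_sdiff_self] at h1
  rw [inter_comm, inter_union_sdiff] at h2
  rw [inter_comm]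
  linarith

/-- FKG for the complements. -/
theorem Hyp.cofkg (h : Hyp e P R η) (hX : Up e X) (hY : Up e Y) :
    (1 - P X) * (1 - P Y) ≤ 1 - P (X ∪ Y) := by
  have h1 := h.modular X Y
  have h2 := h.fkg X Y hX hY
  linarith

theorem Hyp.prod (h : Hyp e P R η) {ι : Type} (t : Finset ι) (F : ι → Set Ω) {p : ℝ} (hp : 0 ≤ p)
    (hF : ∀ i ∈ t, Up e (F i)) (hP : ∀ i ∈ t, p ≤ P (F i)) :
    p ^ t.card ≤ P (⋂ i ∈ t, F i) := by
  classical
  suffices H : Up e (⋂ i ∈ t, F i) ∧ p ^ t.card ≤ P (⋂ i ∈ t, F i) from H.2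
  induction t using Finset.induction_on with
  | empty => exact ⟨fun _ _ _ _ => by simp, by simp [h.univ]⟩
  | insert i t hi ih =>
    obtain ⟨h1, h2⟩ := ih (fun j hj => hF j (Finset.mem_insert_of_mem hj))
      fun j hj => hP j (Finset.mem_insert_of_mem hj)
    have h3 := hF i (Finset.mem_insert_self i t)
    rw [Finset.set_biInter_insert, Finset.card_insert_of_notMem hi, pow_succ']
    exact ⟨h3.inter h1, (mul_le_mul (hP i (Finset.mem_insert_self i t)) h2 (pow_nonneg hp _)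
      (h.nonneg _)).trans (h.fkg _ _ h3 h1)⟩

theorem Gd.comp {f g : ℝ → ℝ} (hf : Gd f) (hg : Gd g) : Gd fun x => g (f x) :=
  ⟨fun x hx => hg.1 _ (hf.1 x hx), hg.2.comp (tendsto_nhdsWithin_iff.2 ⟨hf.2, by
    filter_upwards [Ioo_mem_nhdsLT (zero_lt_one' ℝ)] with x hx using (hf.1 x hx).2⟩)⟩

theorem Gd.mul {f g : ℝ → ℝ} (hf : Gd f) (hg : Gd g) : Gd fun x => f x * g x :=
  ⟨fun x hx => ⟨mul_pos (hf.1 x hx).1 (hg.1 x hx).1,
    mul_lt_one_of_nonneg_of_lt_one_left (hf.1 x hx).1.le (hf.1 x hx).2 (hg.1 x hx).2.le⟩,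
    by simpa using hf.2.mul hg.2⟩

theorem gd_id : Gd fun x => x := ⟨fun _ hx => hx, nhdsWithin_le_nhds⟩

theorem Gd.pow {f : ℝ → ℝ} (hf : Gd f) (n : ℕ) : Gd fun x => f x ^ (n + 1) :=
  ⟨fun x hx => ⟨pow_pos (hf.1 x hx).1 _, pow_lt_one₀ (hf.1 x hx).1.le (hf.1 x hx).2 n.succ_ne_zero⟩,
    by simpa using hf.2.pow (n + 1)⟩

theorem gd_sqrt : Gd fun x => 1 - Real.sqrt (1 - x) := by
  refine ⟨fun x hx => ⟨sub_pos.2 ((Real.sqrt_lt' one_pos).2 (by linarith [hx.1])),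
    sub_lt_self _ (Real.sqrt_pos.2 (by linarith [hx.2]))⟩, ?_⟩
  have : Continuous fun x : ℝ => 1 - Real.sqrt (1 - x) := by fun_prop
  simpa using (this.tendsto 1).mono_left nhdsWithin_le_nhds

end Vale.Agent.P153.RSW
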