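import Vale.Agent.P153.RSW.Defs

/-! Abstract RSW theory: statements. -/

open Set Filter Topology

namespace Vale.Agent.P153.RSW

/-- An arch in a half plane separates the points under it from infinity. -/
def PLA : Prop := ∀ (r : ℤ) (ρ : ℕ) (S T : Set V) (l a c : ℤ) (b : V),
  S ⊆ {v | r ≤ v.2} ∩ hex 0 ρ → T ⊆ {v | r ≤ v.2} → l < a → a < c → (l, r) ∈ S →
  Conn all S (l, r) (c, r) → (a, r) ∈ T → Conn all T (a, r) b → b ∉ hex 0 ρ → (S ∩ T).Nonempty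

/-- Half plane paths with alternating ends meet. -/
def PLB : Prop := ∀ (S T : Set V) (a b c d : ℤ),
  S ⊆ {v | 0 ≤ v.2} → T ⊆ {v | 0 ≤ v.2} → a < b → b < c → c < d → (a, (0 : ℤ)) ∈ S →
  Conn all S (a, 0) (c, 0) → (b, (0 : ℤ)) ∈ T → Conn all T (b, 0) (d, 0) → (S ∩ T).Nonempty

/-- Two consecutive sides of the triangle meet. -/
def PLC : Prop := ∀ (a b : ℕ) (S T : Set V) (x y x' y' : V), 1 ≤ a → a ≤ b →
  S ⊆ side b '' box (b - a) (3 * b) → T ⊆ r3 '' (side b '' box (b - a) (3 * b)) →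
  x ∈ S → Conn all S x y → x.1 = -b → y.1 = 2 * b →
  x' ∈ T → Conn all T x' y' → x'.2 = -b → y'.2 = 2 * b → (S ∩ T).Nonempty

/-- A circuit with odd winding blocks all lattice paths. -/
def PLD : Prop := ∀ (E : V → V → Prop) (z : V) (n N : ℕ), (∀ x y, E x y → E y x) → Circ E z n N →
  ∃ C : Set V, C ⊆ ann z n N ∧ (∀ u ∈ C, ∀ v ∈ C, Conn E (ann z n N) u v) ∧
    ∀ (S : Set V) (a b : V), nrm (a - z) < n → N < nrm (b - z) → a ∈ S → Conn all S a b →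
      (S ∩ C).Nonempty

/-- Three long crossings make a circuit. -/
def Tri : Prop := ∀ (Ω : Type) (e : Ω → V → V → Prop) (z : V) (a b : ℕ),
  (∀ ω x y, e ω x y → e ω y x) → 1 ≤ a → a ≤ b →
  LX e ((side b).trans (tr z)) (b - a) (3 * b) ∩
    LX e (((side b).trans r3).trans (tr z)) (b - a) (3 * b) ∩
    LX e ((((side b).trans r3).trans r3).trans (tr z)) (b - a) (3 * b) ⊆
    {ω | Circ (e ω) z a (2 * b)}

/-- Square root trick followed by one use of the symmetry. -/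
def Pick : Prop := ∀ C : ℕ, Tr fun {Ω} e P R p q =>
  ∀ (ι : Type) (t : Finset ι) (S A B : ι → Set V) (X : Set Ω), t.card ≤ C →
    X ⊆ ⋃ i ∈ t, Ev e (S i) (A i) (B i) → p ≤ P X →
    ∃ i ∈ t, ∀ g : V ≃ V, IsSym g → S i ⊆ hex 0 R → g '' S i ⊆ hex 0 R →
      q ≤ P (Ev e (g '' S i) (g '' A i) (g '' B i))

/-- A chain of translated bridges contains a long crossing. -/
def Chain : Prop := ∀ (E : V → V → Prop) (w n L : ℕ) (d : ℤ) (S : ℕ → Set V),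
  (∀ x y, E x y → E y x) → 2 ≤ d → (L : ℤ) ≤ n * (2 * (w : ℤ) + 1) →
  (∀ t ≤ n, S t ⊆ {v | 0 ≤ v.2 ∧ v.2 ≤ 129 * (2 * (w : ℤ) + 1)}) →
  (∀ t ≤ n, ∃ a ∈ tr (((t : ℤ) - 1) * (2 * (w : ℤ) + 1), 0) '' I0 w,
    ∃ b ∈ tr (((t : ℤ) - 1 + d) * (2 * (w : ℤ) + 1), 0) '' I0 w, a ∈ S t ∧ Conn E (S t) a b) →
  ∃ a b : V, a.1 = 0 ∧ b.1 = L ∧ a ∈ box (129 * (2 * w + 1)) L ∧
    Conn E (box (129 * (2 * w + 1)) L) a b

/-- Bridges give long crossings. -/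
def L1 : Prop := ∀ K : ℕ, Tr fun e P R p q =>
  ∀ w L b : ℕ, L ≤ K * (2 * w + 1) → 129 * (2 * w + 1) ≤ b → (K + 400) * (2 * w + 1) ≤ R →
    p ≤ P (Wide e w) → ∀ g : V ≃ V, IsSym g → g '' box b L ⊆ hex 0 R → q ≤ P (LX e g b L)

/-- Bridges give circuits. -/
def L1c : Prop := ∀ K : ℕ, Tr fun e P R p q =>
  ∀ (w a : ℕ) (z : V), 1 ≤ a → a ≤ K * (2 * w + 1) → (3 * K + 800) * (2 * w + 1) ≤ R →
    nrm z + 2 * (a + 129 * (2 * w + 1)) ≤ R → p ≤ P (Wide e w) →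
    q ≤ P {ω | Circ (e ω) z a (2 * (a + 129 * (2 * w + 1)))}

/-- Arms contain half plane arms. -/
def L2 : Prop := ∀ K : ℕ, Tr fun e P R p q =>
  ∀ w a b : ℕ, a + 1302 * (2 * w + 1) < b → b ≤ K * (2 * w + 1) → b ≤ R →
    1400 * (2 * w + 1) ≤ R → p ≤ P (Ar e a b) → q ≤ P (G e w)

/-- Arms with little room below contain legs of a barrier. -/
def L3 : Prop := Tr fun e P R p q =>
  ∀ l w : ℕ, l ≤ w → 1400 * (2 * w + 1) ≤ R → p ≤ P (D e l w) →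
    ∃ k, (k = 21 * (2 * w + 1) ∨ k = 9 * (2 * w + 1)) ∧ q ≤ P (Al e k l w) ∧ q ≤ P (Al' e k l w)

/-- A path avoiding the gate hits a leg. -/
def L4 : Prop := ∀ (Ω : Type) (e : Ω → V → V → Prop) (k l w : ℕ), (∀ ω x y, e ω x y → e ω y x) →
  (k = 21 * (2 * w + 1) ∨ k = 9 * (2 * w + 1)) → l ≤ w →
  Eav e k l w ∩ Al e k l w ∩ Al' e k l w ⊆ Wide e w

/-- Closing the barrier. -/
def L6 : Prop := ∀ (Ω : Type) (e : Ω → V → V → Prop) (k w : ℕ), (∀ ω x y, e ω x y → e ω y x) →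
  (k = 21 * (2 * w + 1) ∨ k = 9 * (2 * w + 1)) →
  Al e k 0 w ∩ Al' e k 0 w ⊆ Wide e w ∧ ∀ l n N : ℕ, l < n → N < 18 * (2 * w + 1) →
    Al e k l w ∩ Al' e k l w ∩ {ω | Circ (e ω) (gate k) n N} ⊆ Wide e w

/-- A path through the gate gives the arm at the next scale. -/
def L5 : Prop := ∀ (Ω : Type) (e : Ω → V → V → Prop) (P : Set Ω → ℝ) (R : ℕ) (η : ℝ)
  (k l w : ℕ), Hyp e P R η → k ≤ 21 * (2 * w + 1) → l ≤ w → 1400 * (2 * w + 1) ≤ R →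
  P (D e l (15 * w + 7)) + η ≤ 1 →
  (1 - P (Eav e k l w)) * (1 - P (D e l (15 * w + 7)) - η) ^ 2 ≤ 1 - P (G e w)

/-- The scales. -/
def sc : ℕ → ℕ
  | 0 => 0
  | k + 1 => 15 * sc k + 7

/-- The main estimate. -/
def Main : Prop := Tr fun e P R p q =>
  ∀ n : ℕ, 2000 * (2 * sc (n + 1) + 1) ≤ R → p ≤ P (G e (sc n)) → q ≤ P (Wide e (sc (n + 1)))

/-- Arms give bridges at a comparable scale. -/
def ArmW : Prop := Tr fun e P R p q =>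
  ∀ N : ℕ, 326 ≤ N → 100 * N ≤ R → p ≤ P {ω | Arm (e ω) 0 N (5 * N)} →
    ∃ w : ℕ, N ≤ 326 * (2 * w + 1) ∧ 21 * (2 * w + 1) ≤ N ∧ q ≤ P (Wide e w)

/-- OUTPUT 1: arms give circuits. -/
def RSWc : Prop := Tr fun e P R p q =>
  ∀ N : ℕ, 326 ≤ N → 100 * N ≤ R → p ≤ P {ω | Arm (e ω) 0 N (5 * N)} →
    ∀ z : V, nrm z + 15 * N ≤ R → q ≤ P {ω | Circ (e ω) z N (15 * N)}

/-- OUTPUT 2: arms give long crossings and rhombus crossings. -/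
def RSWx : Prop := ∀ K : ℕ, Tr fun e P R p q =>
  ∀ N : ℕ, 326 ≤ N → (100 + 20 * K) * N ≤ R → p ≤ P {ω | Arm (e ω) 0 N (5 * N)} →
    (∀ (b L : ℕ) (g : V ≃ V), 7 * N ≤ b → L ≤ K * N → IsSym g → g '' box b L ⊆ hex 0 R →
      q ≤ P (LX e g b L)) ∧
    ∀ (m : ℕ) (x : V), 7 * N ≤ 2 * m → 2 * m ≤ K * N → nrm x + 2 * m ≤ R →
      q ≤ P {ω | HCr (e ω) x m} ∧ q ≤ P {ω | VCr (e ω) x m}

/-- Averaging a monotone family. -/
def Avg : Prop := ∀ (Ω : Type) (e : Ω → V → V → Prop) (P : ℕ → Set Ω → ℝ) (R r T : ℕ), 0 < T →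
  (∀ ω x y, e ω x y → e ω y x) → (∀ t A, 0 ≤ P t A) → (∀ t, P t univ = 1) →
  (∀ t A B, Disjoint A B → P t (A ∪ B) = P t A + P t B) →
  (∀ t A B, Up e A → Up e B → P t A * P t B ≤ P t (A ∩ B)) →
  ((∀ t A, Up e A → P t A ≤ P (t + 1) A) ∧
    (∀ t, ∀ g : V ≃ V, IsSym g → ∀ S A B : Set V, S ⊆ hex 0 R → g '' S ⊆ hex 0 R →
      P t (Ev e S A B) ≤ P (t + r) (Ev e (g '' S) (g '' A) (g '' B))) ∨
   (∀ t A, Up e A → P (t + 1) A ≤ P t A) ∧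
    (∀ t, ∀ g : V ≃ V, IsSym g → ∀ S A B : Set V, S ⊆ hex 0 R → g '' S ⊆ hex 0 R →
      P (t + r) (Ev e S A B) ≤ P t (Ev e (g '' S) (g '' A) (g '' B)))) →
  Hyp e (fun A => (∑ t ∈ Finset.range T, P t A) / T) R (r / T)

end Vale.Agent.P153.RSW
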